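import Mathlib

/-!
# P017, module M6: Siegel-Walfisz on `(N, 2N]`
-/

open Finset

namespace Vale.Agent.P017.R2.H217

open ArithmeticFunction (vonMangoldt)

/-- Siegel-Walfisz -/
def SW : Prop := ∀ C : ℝ, 0 < C → ∃ x₀ : ℝ, ∀ x : ℝ, x₀ ≤ x → ∀ q a : ℕ, 1 ≤ q →
  (q : ℝ) ≤ (Real.log x) ^ C → Nat.Coprime a q →
    |(∑ n ∈ (Icc 1 ⌊x⌋₊).filter (fun n => n ≡ a [MOD q]), vonMangoldt n)
      - x / (Nat.totient q : ℝ)| ≤ x / (Real.log x) ^ C

/-- Chebyshev sum over `(N, 2N]` in a class -/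
noncomputable def P (N q a : ℕ) : ℝ :=
  ∑ n ∈ (Ioc N (2 * N)).filter (fun n => n ≡ a [MOD q]), vonMangoldt n

theorem P_eq (N q a : ℕ) : P N q a =
    (∑ n ∈ (Icc 1 (2 * N)).filter (fun n => n ≡ a [MOD q]), vonMangoldt n) -
    ∑ n ∈ (Icc 1 N).filter (fun n => n ≡ a [MOD q]), vonMangoldt n := by
  have h : Icc 1 (2 * N) = Icc 1 N ∪ Ioc N (2 * N) := by
    ext n; simp only [mem_Icc, mem_union, mem_Ioc]; omega
  have hd : Disjoint ((Icc 1 N).filter (fun n => n ≡ a [MOD q]))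
      ((Ioc N (2 * N)).filter (fun n => n ≡ a [MOD q])) := by
    refine disjoint_filter_filter ?_
    rw [disjoint_left]; intro n h1 h2
    rw [mem_Icc] at h1; rw [mem_Ioc] at h2; omega
  rw [h, filter_union, sum_union hd, P]; ring

theorem psi_int (hsw : SW) : ∃ N₀ : ℕ, 3 ≤ N₀ ∧ ∀ N : ℕ, N₀ ≤ N → ∀ q a : ℕ, 1 ≤ q →
    (q : ℝ) ≤ (Real.log N) ^ 6 → Nat.Coprime a q →
    |P N q a - N / (Nat.totient q : ℝ)| ≤ 3 * N / (Real.log N) ^ 6 := by
  obtain ⟨x₀, hx⟩ := hsw 6 (by norm_num)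
  refine ⟨max 3 ⌈x₀⌉₊, le_max_left _ _, fun N hN q a hq hqN ha => ?_⟩
  have hN3 : 3 ≤ N := (le_max_left _ _).trans hN
  have hNx : x₀ ≤ N := (Nat.le_ceil x₀).trans (by exact_mod_cast (le_max_right _ _).trans hN)
  have hN0 : (0 : ℝ) < N := by positivity
  have hl0 : 0 < Real.log N := Real.log_pos (by exact_mod_cast (by omega : 1 < N))
  have hl : Real.log N ≤ Real.log ((2 * N : ℕ) : ℝ) :=
    Real.log_le_log hN0 (by push_cast; linarith)
  have h1 := hx N hNx q a hq (by rw [show (6 : ℝ) = ((6 : ℕ) : ℝ) by norm_num, Real.rpow_natCast]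
                                 exact hqN) ha
  have h2 := hx ((2 * N : ℕ) : ℝ) (hNx.trans (by push_cast; linarith)) q a hq
    (by rw [show (6 : ℝ) = ((6 : ℕ) : ℝ) by norm_num, Real.rpow_natCast]
        exact hqN.trans (pow_le_pow_left₀ hl0.le hl 6)) ha
  rw [Nat.floor_natCast, show (6 : ℝ) = ((6 : ℕ) : ℝ) by norm_num, Real.rpow_natCast] at h1 h2
  have h3 : ((2 * N : ℕ) : ℝ) / (Real.log ((2 * N : ℕ) : ℝ)) ^ 6 ≤ 2 * N / (Real.log N) ^ 6 := by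
    push_cast at hl ⊢
    gcongr
  rw [P_eq]
  have h4 : (3 * N : ℝ) / (Real.log N) ^ 6 = 2 * N / (Real.log N) ^ 6 + N / (Real.log N) ^ 6 := by
    ring
  rw [h4]
  have h5 : (∑ n ∈ (Icc 1 (2 * N)).filter (fun n => n ≡ a [MOD q]), vonMangoldt n) -
      (∑ n ∈ (Icc 1 N).filter (fun n => n ≡ a [MOD q]), vonMangoldt n) - N / (Nat.totient q : ℝ) =
      ((∑ n ∈ (Icc 1 (2 * N)).filter (fun n => n ≡ a [MOD q]), vonMangoldt n)
        - ((2 * N : ℕ) : ℝ) / (Nat.totient q : ℝ)) -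
      ((∑ n ∈ (Icc 1 N).filter (fun n => n ≡ a [MOD q]), vonMangoldt n)
        - (N : ℝ) / (Nat.totient q : ℝ)) := by
    push_cast; ring
  rw [h5]
  exact (abs_sub _ _).trans (add_le_add (h2.trans h3) h1)

/-- the prime powers contribute little -/
theorem nonprime_le (N : ℕ) (hN : 1 ≤ N) (S : Finset ℕ) (hS : ∀ n ∈ S, n ∈ Ioc N (2 * N) ∧ ¬ n.Prime)
    (w : ℕ → ℝ) (hw : ∀ n, |w n| ≤ 1) :
    |∑ n ∈ S, vonMangoldt n * w n| ≤ 2 * √(2 * N) * Real.log (2 * N) := by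
  have h2N : (1 : ℝ) ≤ 2 * N := by
    have : (1 : ℝ) ≤ N := by exact_mod_cast hN
    linarith
  refine le_trans ?_ (Chebyshev.psi_sub_theta_le h2N)
  rw [Chebyshev.psi_sub_theta_eq_sum_not_prime]
  have hfl : ⌊(2 * N : ℝ)⌋₊ = 2 * N := by
    rw [show (2 * N : ℝ) = ((2 * N : ℕ) : ℝ) by push_cast; ring, Nat.floor_natCast]
  rw [hfl]
  refine (abs_sum_le_sum_abs _ _).trans ?_
  refine (sum_le_sum (g := fun n => vonMangoldt n) fun n _ => ?_).trans ?_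
  · rw [abs_mul, abs_of_nonneg ArithmeticFunction.vonMangoldt_nonneg]
    exact mul_le_of_le_one_right ArithmeticFunction.vonMangoldt_nonneg (hw n)
  · refine sum_le_sum_of_subset_of_nonneg ?_ fun n _ _ => ArithmeticFunction.vonMangoldt_nonneg
    intro n hn
    obtain ⟨h1, h2⟩ := hS n hn
    rw [mem_Ioc] at h1
    rw [mem_filter, mem_Ioc]
    exact ⟨⟨by omega, h1.2⟩, h2⟩

end Vale.Agent.P017.R2.H217
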