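import Vale.Agent.P017.R2.H217.Small

/-!
# P017, module M6: large conductors, by Cauchy's inequality
-/

open Finset

namespace Vale.Agent.P017.R2.H217

open Vale.Agent.P017.R2.H985 (Theta StmtPS2)

theorem not_square {c c' : ℕ} (h : Squarefree c) (h' : Squarefree c') (hne : c ≠ c') :
    ¬ IsSquare (c * c') := by
  rintro ⟨m, hm⟩
  apply hne
  have hc : c ≠ 0 := h.ne_zero
  have hc' : c' ≠ 0 := h'.ne_zero
  have hm0 : m ≠ 0 := by
    rintro rfl
    rw [mul_zero] at hm
    exact (mul_ne_zero hc hc') hm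
  refine Nat.eq_of_factorization_eq hc hc' fun p => ?_
  have h1 := congrArg (fun f => f p) (Nat.factorization_mul hc hc')
  have h2 := congrArg (fun f => f p) (Nat.factorization_mul hm0 hm0)
  simp only [Finsupp.coe_add, Pi.add_apply] at h1 h2
  rw [hm, h2] at h1
  have h3 := h.natFactorization_le_one p
  have h4 := h'.natFactorization_le_one p
  omega

theorem large (hPS : StmtPS2) (N r : ℕ) (hN : 1 ≤ N) (L : Finset ℕ) (Q : ℝ) (hQ : 0 < Q)
    (hL : ∀ c ∈ L, 1 ≤ c ∧ c ^ 4 ≤ N ∧ Squarefree c ∧ Odd c ∧ Q ≤ c) :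
    (∑ c ∈ L, |Theta N r c| / c) ^ 2 ≤
      N * Real.log (2 * N) ^ 2 * (N * (1 + Real.log N) / Q + √N) := by
  set s : ℕ → ℝ := fun c => if 0 ≤ Theta N r c then 1 else -1 with hs
  have hs1 : ∀ c, |s c| = 1 := by
    intro c; rw [hs]; simp only; split_ifs <;> simp
  have hsT : ∀ c, |Theta N r c| = s c * Theta N r c := by
    intro c; rw [hs]; simp only; split_ifs with h
    · rw [abs_of_nonneg h, one_mul]
    · rw [abs_of_neg (not_le.1 h)]; ring
  set G : ℕ → ℝ := fun n => ∑ c ∈ L, s c / c * (jacobiSym n c : ℝ) with hG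
  set S := (Ioc N (2 * N)).filter (fun p => p.Prime ∧ p % 60 = r) with hS
  have h1 : ∑ c ∈ L, |Theta N r c| / c = ∑ p ∈ S, Real.log p * G p := by
    have h2 : ∀ c ∈ L, |Theta N r c| / c =
        ∑ p ∈ S, Real.log p * (s c / c * (jacobiSym p c : ℝ)) := by
      intro c _
      rw [hsT, Theta, mul_sum, sum_div]
      refine sum_congr rfl fun p _ => ?_
      ring
    rw [sum_congr rfl h2, sum_comm]
    refine sum_congr rfl fun p _ => ?_
    rw [hG]; simp only; rw [mul_sum]
  rw [h1]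
  refine (sum_mul_sq_le_sq_mul_sq _ _ _).trans ?_
  have hlog0 : 0 ≤ Real.log (2 * N) := Real.log_nonneg (by
    have : (1 : ℝ) ≤ N := by exact_mod_cast hN
    linarith)
  have hA : ∑ p ∈ S, Real.log p ^ 2 ≤ N * Real.log (2 * N) ^ 2 := by
    calc ∑ p ∈ S, Real.log p ^ 2 ≤ ∑ p ∈ Ioc N (2 * N), Real.log (2 * N) ^ 2 := by
          refine (sum_le_sum fun p hp => ?_).trans
            (sum_le_sum_of_subset_of_nonneg (filter_subset _ _) fun _ _ _ => by positivity)
          rw [hS, mem_filter, mem_Ioc] at hp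
          have hp1 : (1 : ℝ) ≤ p := by exact_mod_cast hp.2.1.one_lt.le
          have hp2 : (p : ℝ) ≤ 2 * N := by exact_mod_cast hp.1.2
          have h3 : 0 ≤ Real.log p := Real.log_nonneg hp1
          have h4 : Real.log p ≤ Real.log (2 * N) := Real.log_le_log (by linarith) hp2
          exact pow_le_pow_left₀ h3 h4 2
      _ = N * Real.log (2 * N) ^ 2 := by
          rw [sum_const, Nat.card_Ioc, nsmul_eq_mul]
          congr 1
          rw [Nat.two_mul, Nat.add_sub_cancel]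
  have hB : ∑ p ∈ S, G p ^ 2 ≤ N * (1 + Real.log N) / Q + √N := by
    have h5 : ∑ p ∈ S, G p ^ 2 ≤ ∑ n ∈ Ioc N (2 * N), G n ^ 2 :=
      sum_le_sum_of_subset_of_nonneg (filter_subset _ _) fun _ _ _ => sq_nonneg _
    have h6 : ∑ n ∈ Ioc N (2 * N), G n ^ 2 = ∑ c ∈ L, ∑ c' ∈ L, s c / c * (s c' / c') *
        ∑ n ∈ Ioc N (2 * N), (jacobiSym n c : ℝ) * (jacobiSym n c' : ℝ) := by
      have h7 : ∀ n ∈ Ioc N (2 * N), G n ^ 2 = ∑ c ∈ L, ∑ c' ∈ L, s c / c * (s c' / c') *
          ((jacobiSym n c : ℝ) * (jacobiSym n c' : ℝ)) := by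
        intro n _
        rw [sq, hG]; simp only
        rw [sum_mul_sum]
        refine sum_congr rfl fun c _ => sum_congr rfl fun c' _ => by ring
      rw [sum_congr rfl h7, sum_comm]
      refine sum_congr rfl fun c _ => ?_
      rw [sum_comm]
      refine sum_congr rfl fun c' _ => ?_
      rw [mul_sum]
    have h8 : ∀ c ∈ L, ∀ c' ∈ L, s c / c * (s c' / c') *
        ∑ n ∈ Ioc N (2 * N), (jacobiSym n c : ℝ) * (jacobiSym n c' : ℝ) ≤
        (if c = c' then N / (c : ℝ) ^ 2 else 0) + 1 := by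
      intro c hc c' hc'
      obtain ⟨hc1, -, hcs, hco, -⟩ := hL c hc
      obtain ⟨hc1', -, hcs', hco', -⟩ := hL c' hc'
      have hcR : (0 : ℝ) < c := by exact_mod_cast hc1
      have hcR' : (0 : ℝ) < c' := by exact_mod_cast hc1'
      refine (le_abs_self _).trans ?_
      rw [abs_mul, abs_mul, abs_div, abs_div, hs1, hs1, abs_of_pos hcR, abs_of_pos hcR']
      split_ifs with he
      · subst he
        have h9 : |∑ n ∈ Ioc N (2 * N), (jacobiSym n c : ℝ) * (jacobiSym n c : ℝ)| ≤ N := by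
          refine (abs_sum_le_sum_abs _ _).trans ?_
          calc ∑ n ∈ Ioc N (2 * N), |(jacobiSym n c : ℝ) * (jacobiSym n c : ℝ)|
              ≤ ∑ n ∈ Ioc N (2 * N), (1 : ℝ) := sum_le_sum fun n _ => by
                rw [abs_mul]
                exact mul_le_one₀ (jac_abs_le _ _) (abs_nonneg _) (jac_abs_le _ _)
            _ = N := by
                rw [sum_const, Nat.card_Ioc, nsmul_eq_mul, mul_one]
                congr 1; omega
        calc 1 / (c : ℝ) * (1 / c) * |∑ n ∈ Ioc N (2 * N), (jacobiSym n c : ℝ) * (jacobiSym n c : ℝ)|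
            ≤ 1 / (c : ℝ) * (1 / c) * N := by gcongr
          _ = N / (c : ℝ) ^ 2 := by field_simp
          _ ≤ N / (c : ℝ) ^ 2 + 1 := by linarith
      · have h10 : |∑ n ∈ Ioc N (2 * N), (jacobiSym n c : ℝ) * (jacobiSym n c' : ℝ)| ≤
            (c : ℝ) * c' := by
          have h11 := (hPS (c * c') (hco.mul hco') (not_square hcs hcs' he) N (2 * N)).1
          have h12 : ∑ n ∈ Ioc N (2 * N), jacobiSym n (c * c') =
              ∑ n ∈ Ioc N (2 * N), jacobiSym n c * jacobiSym n c' :=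
            sum_congr rfl fun n _ => jacobiSym.mul_right' _ (by omega) (by omega)
          rw [h12] at h11
          exact_mod_cast h11
        calc 1 / (c : ℝ) * (1 / c') * |∑ n ∈ Ioc N (2 * N), (jacobiSym n c : ℝ) * (jacobiSym n c' : ℝ)|
            ≤ 1 / (c : ℝ) * (1 / c') * (c * c') := by gcongr
          _ = 1 := by field_simp
          _ ≤ 0 + 1 := by linarith
    have h13 : ∑ c ∈ L, ∑ c' ∈ L, ((if c = c' then N / (c : ℝ) ^ 2 else 0) + 1) =
        (∑ c ∈ L, N / (c : ℝ) ^ 2) + (L.card : ℝ) ^ 2 := by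
      simp only [sum_add_distrib, sum_const, nsmul_eq_mul, mul_one]
      rw [sq]
      congr 1
      refine sum_congr rfl fun c hc => ?_
      rw [sum_ite_eq, if_pos hc]
    have h14 : (L.card : ℝ) ^ 2 ≤ √N := by
      have h15 : L ⊆ Icc 1 (Nat.sqrt (Nat.sqrt N)) := by
        intro c hc
        obtain ⟨hc1, hc4, -⟩ := hL c hc
        rw [mem_Icc]
        refine ⟨hc1, ?_⟩
        rw [Nat.le_sqrt, Nat.le_sqrt]
        calc c * c * (c * c) = c ^ 4 := by ring
          _ ≤ N := hc4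
      have h16 : L.card ≤ Nat.sqrt (Nat.sqrt N) := by
        have := card_le_card h15
        rwa [Nat.card_Icc, Nat.add_sub_cancel] at this
      have h17 : L.card ^ 2 ≤ Nat.sqrt N := by
        calc L.card ^ 2 ≤ (Nat.sqrt (Nat.sqrt N)) ^ 2 := Nat.pow_le_pow_left h16 2
          _ ≤ Nat.sqrt N := Nat.sqrt_le' _
      calc (L.card : ℝ) ^ 2 ≤ (Nat.sqrt N : ℝ) := by exact_mod_cast h17
        _ ≤ √N := Real.nat_sqrt_le_real_sqrt
    have h18 : ∑ c ∈ L, N / (c : ℝ) ^ 2 ≤ N * (1 + Real.log N) / Q := by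
      have h19 : ∀ c ∈ L, N / (c : ℝ) ^ 2 ≤ N / Q * (c : ℝ)⁻¹ := by
        intro c hc
        obtain ⟨hc1, -, -, -, hQc⟩ := hL c hc
        have hcR : (0 : ℝ) < c := by exact_mod_cast hc1
        rw [div_mul_eq_mul_div, mul_comm, ← div_eq_inv_mul, div_div, sq]
        gcongr
      refine (sum_le_sum h19).trans ?_
      rw [← mul_sum]
      have h20 : ∑ c ∈ L, (c : ℝ)⁻¹ ≤ 1 + Real.log N := by
        have h21 : L ⊆ Icc 1 N := by
          intro c hc
          obtain ⟨hc1, hc4, -⟩ := hL c hc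
          rw [mem_Icc]
          exact ⟨hc1, (Nat.le_self_pow (by norm_num) c).trans hc4⟩
        refine (sum_le_sum_of_subset_of_nonneg h21 fun _ _ _ => by positivity).trans ?_
        have h22 := harmonic_le_one_add_log N
        rw [harmonic_eq_sum_Icc] at h22
        push_cast at h22
        exact h22
      calc N / Q * ∑ c ∈ L, (c : ℝ)⁻¹ ≤ N / Q * (1 + Real.log N) := by gcongr
        _ = N * (1 + Real.log N) / Q := by ring
    calc ∑ p ∈ S, G p ^ 2 ≤ ∑ n ∈ Ioc N (2 * N), G n ^ 2 := h5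
      _ = _ := h6
      _ ≤ ∑ c ∈ L, ∑ c' ∈ L, ((if c = c' then N / (c : ℝ) ^ 2 else 0) + 1) :=
          sum_le_sum fun c hc => sum_le_sum fun c' hc' => h8 c hc c' hc'
      _ = _ := h13
      _ ≤ N * (1 + Real.log N) / Q + √N := add_le_add h18 h14
  have hB0 : 0 ≤ ∑ p ∈ S, G p ^ 2 := sum_nonneg fun _ _ => sq_nonneg _
  exact mul_le_mul hA hB hB0 (by positivity)

end Vale.Agent.P017.R2.H217
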