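import Vale.Agent.P017.R2.H217.Large

/-!
# P017, module M6: `StmtCharSum` and `StmtMain`
-/

open Finset Filter

namespace Vale.Agent.P017.R2.H217

open Vale.Agent.P017.R2.H985 (Theta StmtPS2 StmtCharSum StmtMain)

theorem ev (δ : ℝ) (hδ : 0 < δ) : ∃ N₀ : ℕ, 2 ≤ N₀ ∧ ∀ N : ℕ, N₀ ≤ N →
    60 ≤ Real.log N ∧ 1 / Real.log N ≤ δ ∧ (Real.log N) ^ 6 ≤ δ * √N := by
  have h1 : ∀ᶠ N : ℕ in atTop, 60 ≤ Real.log N :=
    (Real.tendsto_log_atTop.comp tendsto_natCast_atTop_atTop).eventually_ge_atTop 60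
  have h2 : ∀ᶠ N : ℕ in atTop, 1 / δ ≤ Real.log N :=
    (Real.tendsto_log_atTop.comp tendsto_natCast_atTop_atTop).eventually_ge_atTop _
  have h3 : ∀ᶠ x : ℝ in atTop, ‖Real.log x ^ 12‖ ≤ δ ^ 2 * ‖x‖ :=
    (Real.isLittleO_pow_log_id_atTop (n := 12)).def (by positivity)
  have h4 := tendsto_natCast_atTop_atTop (R := ℝ) |>.eventually h3
  obtain ⟨N₀, hN₀⟩ := (h1.and (h2.and h4)).exists_forall_of_atTop
  refine ⟨max 2 N₀, le_max_left _ _, fun N hN => ?_⟩
  obtain ⟨a1, a2, a3⟩ := hN₀ N ((le_max_right _ _).trans hN)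
  refine ⟨a1, ?_, ?_⟩
  · rw [div_le_iff₀ (by linarith)]
    rw [div_le_iff₀ hδ] at a2
    linarith
  · have hl : 0 ≤ Real.log N := by linarith
    rw [Real.norm_of_nonneg (by positivity), Real.norm_of_nonneg (by positivity)] at a3
    have h5 : ((Real.log N) ^ 6) ^ 2 ≤ (δ * √N) ^ 2 := by
      rw [mul_pow, Real.sq_sqrt (by positivity)]
      calc ((Real.log N) ^ 6) ^ 2 = Real.log N ^ 12 := by ring
        _ ≤ _ := a3
    exact (sq_le_sq₀ (by positivity) (by positivity)).1 h5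

theorem basic {N : ℕ} (hN : 2 ≤ N) :
    Real.log (2 * N) ≤ 2 * Real.log N ∧ √(2 * N : ℝ) ≤ 2 * √N ∧
    2 * √(2 * N : ℝ) * Real.log (2 * N) ≤ 8 * √N * Real.log N := by
  have hN2 : (2 : ℝ) ≤ N := by exact_mod_cast hN
  have hN0 : (0 : ℝ) < N := by linarith
  have h1 : Real.log (2 * N) ≤ 2 * Real.log N := by
    rw [Real.log_mul (by norm_num) hN0.ne', two_mul]
    have := Real.log_le_log (by norm_num) hN2
    linarith
  have h2 : √(2 * N : ℝ) ≤ 2 * √N := by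
    rw [show (2 : ℝ) * √N = √(4 * N) by
      rw [Real.sqrt_mul (by norm_num), show (4 : ℝ) = 2 ^ 2 by norm_num,
        Real.sqrt_sq (by norm_num)]]
    exact Real.sqrt_le_sqrt (by linarith)
  refine ⟨h1, h2, ?_⟩
  have h3 : 0 ≤ Real.log (2 * N) := Real.log_nonneg (by linarith)
  have h4 : 0 ≤ Real.log N := Real.log_nonneg (by linarith)
  calc 2 * √(2 * N : ℝ) * Real.log (2 * N) ≤ 2 * (2 * √N) * (2 * Real.log N) := by gcongr
    _ = 8 * √N * Real.log N := by ring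

theorem main (hsw : SW) : StmtMain := by
  obtain ⟨N₁, hN₁, h1⟩ := psi_int hsw
  obtain ⟨N₂, hN₂, h2⟩ := ev (1 / 880) (by norm_num)
  refine ⟨max N₁ N₂, fun N hN r hr hrc => ?_⟩
  obtain ⟨a1, a2, a3⟩ := h2 N ((le_max_right _ _).trans hN)
  have hN2 : 2 ≤ N := hN₂.trans ((le_max_right _ _).trans hN)
  have hN0 : (0 : ℝ) < N := by positivity
  obtain ⟨-, -, b3⟩ := basic hN2
  have hl : 0 < Real.log N := by linarith
  have hq : ((60 : ℕ) : ℝ) ≤ Real.log N ^ 6 := by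
    push_cast
    calc (60 : ℝ) ≤ Real.log N := a1
      _ ≤ Real.log N ^ 6 := le_self_pow₀ (by linarith) (by norm_num)
  have h3 := h1 N ((le_max_left _ _).trans hN) 60 r (by norm_num) hq hrc
  have h4 : P N 60 r = Psi N r 1 := by
    rw [P, Psi]
    have h5 : (Ioc N (2 * N)).filter (fun n => n ≡ r [MOD 60]) =
        (Ioc N (2 * N)).filter (fun n => n % 60 = r) := by
      refine filter_congr fun n _ => ?_
      rw [Nat.ModEq, Nat.mod_eq_of_lt hr]
    rw [h5]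
    refine sum_congr rfl fun n _ => ?_
    rw [jacobiSym.one_right]; push_cast; ring
  have h6 := theta_psi N r 1 (by omega)
  have h7 : (Nat.totient 60 : ℝ) = 16 := by
    have : Nat.totient 60 = 16 := by decide
    rw [this]; norm_num
  rw [h4, h7] at h3
  have h8 : 3 * (N : ℝ) / Real.log N ^ 6 ≤ 3 * ((N : ℝ) / 880) := by
    have h9 : 1 / Real.log N ^ 6 ≤ 1 / 880 := by
      refine le_trans ?_ a2
      exact one_div_le_one_div_of_le hl (le_self_pow₀ (by linarith) (by norm_num))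
    calc 3 * (N : ℝ) / Real.log N ^ 6 = 3 * (N : ℝ) * (1 / Real.log N ^ 6) := by ring
      _ ≤ 3 * (N : ℝ) * (1 / 880) := by gcongr
      _ = 3 * ((N : ℝ) / 880) := by ring
  have h10 : 8 * √N * Real.log N ≤ 8 * ((N : ℝ) / 880) := by
    have h11 : Real.log N ≤ 1 / 880 * √N :=
      (le_self_pow₀ (by linarith) (by norm_num)).trans a3
    calc 8 * √N * Real.log N ≤ 8 * √N * (1 / 880 * √N) := by gcongr
      _ = 8 * (1 / 880) * (√N * √N) := by ring
      _ = 8 * ((N : ℝ) / 880) := by rw [Real.mul_self_sqrt hN0.le]; ring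
  have h12 := (abs_le.1 (h3.trans h8)).1
  have h13 := (abs_le.1 (h6.trans (b3.trans h10))).1
  linarith

theorem charSum (hsw : SW) (hPS : StmtPS2) : StmtCharSum := by
  intro ε hε
  obtain ⟨δ, hδ0, hδ1, hδ2, hδ3⟩ : ∃ δ : ℝ, 0 < δ ∧ δ ≤ 1 ∧ 11 * δ ≤ ε / 2 ∧ 12 * δ ≤ (ε / 2) ^ 2 := by
    refine ⟨min 1 (min (ε / 22) (ε ^ 2 / 48)), by positivity, min_le_left _ _, ?_, ?_⟩
    · have := (min_le_right 1 (min (ε / 22) (ε ^ 2 / 48))).trans (min_le_left _ _)
      linarith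
    · have := (min_le_right 1 (min (ε / 22) (ε ^ 2 / 48))).trans (min_le_right _ _)
      linarith
  obtain ⟨N₁, hN₁, h1⟩ := psi_int hsw
  obtain ⟨N₂, hN₂, h2⟩ := ev δ hδ0
  refine ⟨max N₁ N₂, fun N hN r hr hrc => ?_⟩
  obtain ⟨a1, a2, a3⟩ := h2 N ((le_max_right _ _).trans hN)
  have hN2 : 2 ≤ N := hN₂.trans ((le_max_right _ _).trans hN)
  have hN0 : (0 : ℝ) < N := by positivity
  obtain ⟨b1, b2, b3⟩ := basic hN2
  have hl : 0 < Real.log N := by linarith
  have hl1 : 1 ≤ Real.log N := by linarith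
  set l := Real.log N with hldef
  set F := (Icc 2 N).filter (fun c => c ^ 4 ≤ N ∧ Squarefree c ∧ c.Coprime 30) with hF
  have hodd : ∀ c ∈ F, Odd c := by
    intro c hc
    rw [hF, mem_filter] at hc
    rw [← Nat.not_even_iff_odd, even_iff_two_dvd]
    intro h3
    have := Nat.dvd_gcd h3 (by norm_num : 2 ∣ 30)
    rw [hc.2.2.2] at this; norm_num at this
  have hl5 : (0 : ℝ) < l ^ 5 := by positivity
  -- small conductors
  have hS : ∑ c ∈ F.filter (fun c => ((c : ℕ) : ℝ) ≤ l ^ 5), |Theta N r c| / c ≤ 11 * δ * N := by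
    have h3 : ∀ c ∈ F.filter (fun c => ((c : ℕ) : ℝ) ≤ l ^ 5),
        |Theta N r c| / c ≤ 3 * N / l ^ 6 + 8 * √N * l := by
      intro c hc
      rw [mem_filter, hF, mem_filter, mem_Icc] at hc
      obtain ⟨⟨⟨hc2, hcN⟩, hc4, hcs, hc30⟩, hcl⟩ := hc
      have hcR : (1 : ℝ) ≤ c := by exact_mod_cast (by omega : 1 ≤ c)
      have hc60 : ((60 * c : ℕ) : ℝ) ≤ l ^ 6 := by
        push_cast
        calc (60 : ℝ) * c ≤ l * l ^ 5 := by gcongr
          _ = l ^ 6 := by ring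
      have h4 := psi_small (N := N) hPS hr hrc hc2 hcs hc30
        (fun a ha => h1 N ((le_max_left _ _).trans hN) (60 * c) a (by omega) hc60 ha)
      have h5 := theta_psi N r c (by omega)
      have h6 : |Theta N r c| ≤ c * (3 * N / l ^ 6) + 8 * √N * l := by
        have h7 : |Theta N r c| ≤ |Psi N r c| + |Theta N r c - Psi N r c| := by
          have := abs_add_le (Psi N r c) (Theta N r c - Psi N r c)
          rwa [add_sub_cancel] at this
        linarith [h5.trans b3]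
      rw [div_le_iff₀ (by linarith)]
      have h8 : 8 * √N * l ≤ 8 * √N * l * c := le_mul_of_one_le_right (by positivity) hcR
      linarith
    have h9 : ((F.filter (fun c => ((c : ℕ) : ℝ) ≤ l ^ 5)).card : ℝ) ≤ l ^ 5 := by
      have h10 : F.filter (fun c => ((c : ℕ) : ℝ) ≤ l ^ 5) ⊆ Icc 1 ⌊l ^ 5⌋₊ := by
        intro c hc
        rw [mem_filter, hF, mem_filter, mem_Icc] at hc
        rw [mem_Icc]
        exact ⟨by omega, Nat.le_floor hc.2⟩
      have h11 := card_le_card h10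
      rw [Nat.card_Icc, Nat.add_sub_cancel] at h11
      calc ((F.filter (fun c => ((c : ℕ) : ℝ) ≤ l ^ 5)).card : ℝ) ≤ (⌊l ^ 5⌋₊ : ℝ) := by
            exact_mod_cast h11
        _ ≤ l ^ 5 := Nat.floor_le hl5.le
    calc ∑ c ∈ F.filter (fun c => ((c : ℕ) : ℝ) ≤ l ^ 5), |Theta N r c| / c
        ≤ ∑ c ∈ F.filter (fun c => ((c : ℕ) : ℝ) ≤ l ^ 5), (3 * N / l ^ 6 + 8 * √N * l) :=
          sum_le_sum h3
      _ = (F.filter (fun c => ((c : ℕ) : ℝ) ≤ l ^ 5)).card * (3 * N / l ^ 6 + 8 * √N * l) := by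
          rw [sum_const, nsmul_eq_mul]
      _ ≤ l ^ 5 * (3 * N / l ^ 6 + 8 * √N * l) := by gcongr
      _ = 3 * N * (1 / l) + 8 * √N * l ^ 6 := by field_simp
      _ ≤ 3 * N * δ + 8 * √N * (δ * √N) := by gcongr
      _ = 3 * N * δ + 8 * δ * (√N * √N) := by ring
      _ = 11 * δ * N := by rw [Real.mul_self_sqrt hN0.le]; ring
  -- large conductors
  have hB : ∑ c ∈ F.filter (fun c => ¬ ((c : ℕ) : ℝ) ≤ l ^ 5), |Theta N r c| / c ≤ ε / 2 * N := by
    have h3 := large hPS N r (by omega) (F.filter (fun c => ¬ ((c : ℕ) : ℝ) ≤ l ^ 5)) (l ^ 5) hl5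
      (by
        intro c hc
        have hc' := (mem_filter.1 hc)
        have hc1 := hc'.1
        rw [hF, mem_filter, mem_Icc] at hc1
        exact ⟨by omega, hc1.2.1, hc1.2.2.1, hodd c hc'.1, (not_le.1 hc'.2).le⟩)
    have h4 : (N : ℝ) * Real.log (2 * N) ^ 2 * (N * (1 + l) / l ^ 5 + √N) ≤ 12 * δ * N ^ 2 := by
      have h5 : 0 ≤ Real.log (2 * N) := Real.log_nonneg (by
        have : (2 : ℝ) ≤ N := by exact_mod_cast hN2
        linarith)
      have h6 : l ^ 2 * √N ≤ δ * N := by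
        calc l ^ 2 * √N ≤ l ^ 6 * √N := by
              exact mul_le_mul_of_nonneg_right (pow_le_pow_right₀ hl1 (by norm_num)) (by positivity)
          _ ≤ δ * √N * √N := by gcongr
          _ = δ * (√N * √N) := by ring
          _ = δ * N := by rw [Real.mul_self_sqrt hN0.le]
      have h7 : 1 / l * (1 / l) ≤ δ * 1 := by
        refine mul_le_mul a2 ?_ (by positivity) hδ0.le
        exact a2.trans hδ1
      calc (N : ℝ) * Real.log (2 * N) ^ 2 * (N * (1 + l) / l ^ 5 + √N)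
          ≤ N * (2 * l) ^ 2 * (N * (l + l) / l ^ 5 + √N) := by gcongr
        _ = 8 * N ^ 2 * (1 / l * (1 / l)) + 4 * N * (l ^ 2 * √N) := by field_simp; ring
        _ ≤ 8 * N ^ 2 * (δ * 1) + 4 * N * (δ * N) := by gcongr
        _ = 12 * δ * N ^ 2 := by ring
    have h8 : (∑ c ∈ F.filter (fun c => ¬ ((c : ℕ) : ℝ) ≤ l ^ 5), |Theta N r c| / c) ^ 2 ≤
        (ε / 2 * N) ^ 2 := by
      refine (h3.trans h4).trans ?_
      rw [mul_pow]
      gcongr
    exact (sq_le_sq₀ (sum_nonneg fun _ _ => by positivity) (by positivity)).1 h8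
  rw [← sum_filter_add_sum_filter_not F (fun c => ((c : ℕ) : ℝ) ≤ l ^ 5)]
  calc _ ≤ 11 * δ * N + ε / 2 * N := add_le_add hS hB
    _ ≤ ε / 2 * N + ε / 2 * N := by gcongr
    _ = ε * N := by ring

end Vale.Agent.P017.R2.H217
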