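import Vale.Agent.P013.Bdl.B6
import Vale.Agent.P017.R2.H217.Main
import Vale.Agent.P017.R2.H285.Per

/-!
# P017, module M6: unconditional form
-/

open Finset

namespace Vale.Agent.P017.R2.H217

open Vale.Agent.P017.R2.H985 (StmtCharSum StmtMain)

theorem sw : SW := by
  intro C hC
  obtain ⟨x₀, h⟩ := Vale.Agent.P013.J.sw C hC
  refine ⟨x₀, fun x hx q a hq hqx ha => ?_⟩
  have h1 := h x hx q a hq hqx ha
  unfold Vale.Agent.P013.J.psiAP at h1
  simpa only using h1

theorem stmtMain : StmtMain := main sw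

theorem stmtCharSum : StmtCharSum := charSum sw Vale.Agent.P017.R2.H285.stmtPS2

end Vale.Agent.P017.R2.H217
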