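import Vale.Agent.P017.R2.H985.Defs
import Vale.Agent.P017.R2.H217.Base

/-!
# P017, module M6: small conductors
-/

open Finset

namespace Vale.Agent.P017.R2.H217

open ArithmeticFunction (vonMangoldt)
open Vale.Agent.P017.R2.H985 (Theta StmtPS2)

theorem jac_abs_le (a : ℤ) (c : ℕ) : |(jacobiSym a c : ℝ)| ≤ 1 := by
  rcases jacobiSym.trichotomy a c with h | h | h <;> rw [h] <;> norm_num

/-- the same sum with `Λ` -/
noncomputable def Psi (N r c : ℕ) : ℝ :=
  ∑ n ∈ (Ioc N (2 * N)).filter (fun n => n % 60 = r), vonMangoldt n * (jacobiSym n c : ℝ)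

theorem theta_psi (N r c : ℕ) (hN : 1 ≤ N) :
    |Theta N r c - Psi N r c| ≤ 2 * √(2 * N) * Real.log (2 * N) := by
  have h1 : Psi N r c = Theta N r c +
      ∑ n ∈ ((Ioc N (2 * N)).filter (fun n => n % 60 = r)).filter (fun n => ¬ n.Prime),
        vonMangoldt n * (jacobiSym n c : ℝ) := by
    rw [Psi, ← sum_filter_add_sum_filter_not _ (fun n => Nat.Prime n)]
    congr 1
    rw [Theta, filter_filter]
    have h2 : (Ioc N (2 * N)).filter (fun p => p.Prime ∧ p % 60 = r) =
        (Ioc N (2 * N)).filter (fun a => a % 60 = r ∧ Nat.Prime a) := by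
      ext n; simp only [mem_filter, and_comm]
    rw [h2]
    refine sum_congr rfl fun p hp => ?_
    rw [mem_filter] at hp
    rw [ArithmeticFunction.vonMangoldt_apply_prime hp.2.2]
  rw [h1, sub_add_cancel_left, abs_neg]
  refine nonprime_le N hN _ ?_ _ fun n => jac_abs_le _ _
  intro n hn
  rw [mem_filter, mem_filter] at hn
  exact ⟨hn.1.1, hn.2⟩

/-- complete sums vanish -/
theorem complete_zero (h : StmtPS2) (c : ℕ) (hodd : Odd c) (hns : ¬ IsSquare c) :
    ∑ b ∈ range c, jacobiSym b c = 0 := by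
  set S : ℤ := ∑ b ∈ range c, jacobiSym b c with hS
  have hper : ∀ k : ℕ, ∑ n ∈ range (k * c), jacobiSym n c = k * S := by
    intro k
    induction k with
    | zero => simp
    | succ k ih =>
      rw [Nat.succ_mul, sum_range_add, ih]
      have h1 : ∑ x ∈ range c, jacobiSym ((k * c + x : ℕ) : ℤ) c = S := by
        rw [hS]
        refine sum_congr rfl fun b _ => ?_
        refine jacobiSym.mod_left' ?_
        push_cast
        rw [Int.add_comm, Int.add_mul_emod_self_right]
      rw [h1]; push_cast; ring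
  have hc1 : 1 < c := by
    rcases Nat.lt_or_ge 1 c with h1 | h1
    · exact h1
    · exfalso
      interval_cases c
      · simp at hodd
      · exact hns ⟨1, rfl⟩
  have h2 := (h c hodd hns 0 (((c + 1) * c) - 1)).1
  have h3 : ∑ n ∈ Ioc 0 ((c + 1) * c - 1), jacobiSym n c =
      ∑ n ∈ range ((c + 1) * c), jacobiSym n c := by
    have hpos : 0 < (c + 1) * c := by positivity
    have h4 : range ((c + 1) * c) = insert 0 (Ioc 0 ((c + 1) * c - 1)) := by
      ext n; simp only [mem_range, mem_insert, mem_Ioc]; omega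
    rw [h4, sum_insert (by simp)]
    have h5 : jacobiSym ((0 : ℕ) : ℤ) c = 0 := by
      rw [jacobiSym.eq_zero_iff]
      refine ⟨by omega, ?_⟩
      rw [Int.gcd_natCast_natCast]; rw [Nat.gcd_zero_left]; omega
    rw [h5, zero_add]
  rw [h3, hper] at h2
  by_contra hne
  have h6 : 1 ≤ |S| := Int.one_le_abs hne
  have h7 : |((c + 1 : ℕ) : ℤ) * S| = ((c : ℤ) + 1) * |S| := by
    rw [abs_mul]; congr 1
  rw [h7] at h2
  nlinarith

/-- combine the two congruences -/
theorem crt_class (c : ℕ) (hc : Nat.Coprime 60 c) (r b : ℕ) (hr : r < 60) (hb : b < c)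
    (hrc : Nat.Coprime r 60) (hbc : Nat.Coprime b c) :
    ∃ a : ℕ, Nat.Coprime a (60 * c) ∧ ∀ n : ℕ, (n % 60 = r ∧ n % c = b) ↔ n ≡ a [MOD (60 * c)] := by
  obtain ⟨a, ha1, ha2⟩ := Nat.chineseRemainder hc r b
  refine ⟨a, ?_, fun n => ?_⟩
  · refine Nat.Coprime.mul_right ?_ ?_
    · have := ha1.gcd_eq
      rw [Nat.Coprime]; rw [this]; exact hrc
    · have := ha2.gcd_eq
      rw [Nat.Coprime]; rw [this]; exact hbc
  · rw [← Nat.modEq_and_modEq_iff_modEq_mul hc]
    have e1 : a % 60 = r := by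
      have := ha1; rw [Nat.ModEq, Nat.mod_eq_of_lt hr] at this; exact this
    have e2 : a % c = b := by
      have := ha2; rw [Nat.ModEq, Nat.mod_eq_of_lt hb] at this; exact this
    rw [Nat.ModEq, Nat.ModEq, e1, e2]

theorem psi_small {N r c : ℕ} (hPS : StmtPS2) (hr : r < 60) (hrc : r.Coprime 60) (hc2 : 2 ≤ c)
    (hsq : Squarefree c) (hc30 : c.Coprime 30) {D : ℝ}
    (hP : ∀ a : ℕ, Nat.Coprime a (60 * c) → |P N (60 * c) a - N / (Nat.totient (60 * c) : ℝ)| ≤ D) :
    |Psi N r c| ≤ c * D := by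
  have hcop : Nat.Coprime 60 c := by
    have h1 : Nat.Coprime c (30 * 30) := Nat.Coprime.mul_right hc30 hc30
    exact (Nat.Coprime.coprime_dvd_right (by norm_num : 60 ∣ 30 * 30) h1).symm
  have hodd : Odd c := by
    rw [← Nat.not_even_iff_odd, even_iff_two_dvd]
    intro h2
    have := Nat.dvd_gcd h2 (by norm_num : 2 ∣ 30)
    rw [hc30] at this; norm_num at this
  have hns : ¬ IsSquare c := by
    rintro ⟨m, rfl⟩
    have := hsq m (dvd_refl _)
    rw [Nat.isUnit_iff] at this
    subst this; norm_num at hc2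
  have hz := complete_zero hPS c hodd hns
  have hD : 0 ≤ D := by
    have := hP 1 (Nat.coprime_one_left _)
    exact (abs_nonneg _).trans this
  have h1 : Psi N r c = ∑ b ∈ range c, (jacobiSym b c : ℝ) *
      ∑ n ∈ (Ioc N (2 * N)).filter (fun n => n % 60 = r ∧ n % c = b), vonMangoldt n := by
    rw [Psi, ← sum_fiberwise_of_maps_to (g := fun n => n % c) (t := range c)
      (fun n _ => mem_range.2 (Nat.mod_lt _ (by omega)))]
    refine sum_congr rfl fun b _ => ?_
    rw [filter_filter, mul_sum]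
    refine sum_congr rfl fun n hn => ?_
    rw [mem_filter] at hn
    rw [mul_comm]
    congr 2
    refine jacobiSym.mod_left' ?_
    rw [← hn.2.2, Int.natCast_mod, Int.emod_emod]
  have h2 : Psi N r c = ∑ b ∈ range c, (jacobiSym b c : ℝ) *
      ((∑ n ∈ (Ioc N (2 * N)).filter (fun n => n % 60 = r ∧ n % c = b), vonMangoldt n) -
        N / (Nat.totient (60 * c) : ℝ)) := by
    have h3 : ∑ b ∈ range c, (jacobiSym b c : ℝ) = 0 := by exact_mod_cast hz
    rw [h1]
    simp only [mul_sub]
    rw [sum_sub_distrib, ← sum_mul, h3, zero_mul, sub_zero]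
  rw [h2]
  refine (abs_sum_le_sum_abs _ _).trans ?_
  have h4 : ∀ b ∈ range c, |(jacobiSym b c : ℝ) *
      ((∑ n ∈ (Ioc N (2 * N)).filter (fun n => n % 60 = r ∧ n % c = b), vonMangoldt n) -
        N / (Nat.totient (60 * c) : ℝ))| ≤ D := by
    intro b hb
    rw [mem_range] at hb
    by_cases hbc : Nat.Coprime b c
    · obtain ⟨a, ha, hiff⟩ := crt_class c hcop r b hr hb hrc hbc
      have h5 : (Ioc N (2 * N)).filter (fun n => n % 60 = r ∧ n % c = b) =
          (Ioc N (2 * N)).filter (fun n => n ≡ a [MOD (60 * c)]) :=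
        filter_congr fun n _ => hiff n
      rw [abs_mul, h5]
      refine (mul_le_of_le_one_left (abs_nonneg _) (jac_abs_le _ _)).trans ?_
      exact hP a ha
    · have h6 : jacobiSym b c = 0 := by
        rw [jacobiSym.eq_zero_iff]
        exact ⟨by omega, by rwa [Int.gcd_natCast_natCast]⟩
      rw [h6]; simp [hD]
  refine (sum_le_sum h4).trans ?_
  rw [sum_const, card_range, nsmul_eq_mul]

end Vale.Agent.P017.R2.H217
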